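import Vale.Agent.P189.Defs
import Vale.Agent.P189.Lower

namespace Vale.Agent.Results.P189.A_NotFixedPrice

open Vale.Agent.P189

theorem result : ∃ (Γ : Type) (_ : Group Γ) (_ : Countable Γ) (α β : PmpAction Γ),
    α.EssFree ∧ β.EssFree ∧ α.cost ≠ β.cost ∧ α.cost = ⊤ ∧ β.cost < ⊤ :=
  ⟨G, inferInstance, inferInstance, badAction, goodAction, badAction_free, goodAction_free,
    badAction_cost ▸ goodAction_cost.ne', badAction_cost, goodAction_cost⟩

end Vale.Agent.Results.P189.A_NotFixedPrice
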